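import Crest.Agent.R309X.Cnt
import Crest.Prelude.Def_Matchings

/-! Row 304: from a counter on parsed graphs to the statement of S0464. -/

set_option autoImplicit false

namespace Crest.Agent.R304W

open Crest.Agent.PT Crest.Agent.QC Crest.Agent.R317 Crest.Agent.R300U Crest.Agent.R309X
open Crest.Enc Crest.FinProb Crest.Randomized Crest.Matchings

/-- number of vertices (unary), adjacency bits row by row, accuracy (unary) -/
abbrev In64 : Type := ℕ × List Bool × ℕ

def adjBits {n : ℕ} (G : SimpleGraph (Fin n)) [DecidableRel G.Adj] : List Bool :=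
  ((List.finRange n).map fun i => (List.finRange n).map fun j => decide (G.Adj i j)).flatten

theorem length_adjBits {n : ℕ} (G : SimpleGraph (Fin n)) [DecidableRel G.Adj] :
    (adjBits G).length = n * n := by
  simp [adjBits, List.length_flatten, Function.comp_def]

theorem getD_flat {β : Type} (n : ℕ) (d : β) (L : List (List β)) (h : ∀ l ∈ L, l.length = n)
    (i j : ℕ) (hj : j < n) : L.flatten.getD (i * n + j) d = (L.getD i []).getD j d := by
  induction L generalizing i with
  | nil => simp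
  | cons l L ih =>
    have hl : l.length = n := h l (by simp)
    cases i with
    | zero =>
      simp only [List.flatten_cons, zero_mul, zero_add, List.getD_cons_zero]
      exact List.getD_append _ _ _ _ (by omega)
    | succ i =>
      simp only [List.flatten_cons, List.getD_cons_succ]
      rw [List.getD_append_right _ _ _ _ (by rw [hl]; nlinarith),
        ← ih (fun l' hl' => h l' (by simp [hl'])) i]
      congr 1
      rw [hl, Nat.succ_mul]; omega

theorem adjBits_getD {n : ℕ} (G : SimpleGraph (Fin n)) [DecidableRel G.Adj] (i j : Fin n) :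
    (adjBits G).getD (i * n + j) false = decide (G.Adj i j) := by
  rw [adjBits, getD_flat n false _ (by simp) i j j.2]
  simp [List.getD_eq_getElem?_getD]

/-- The counter is good on all graphs. -/
def Good64 (c : In64 → ℕ) (f : In64 × Bin → ℚ) : Prop :=
  ∀ (n : ℕ) (G : SimpleGraph (Fin n)) [DecidableRel G.Adj] (a : ℕ), 1 ≤ a →
    (∀ u < 2 ^ c (n, adjBits G, a), 0 ≤ f ((n, adjBits G, a), ⟨u⟩)) ∧
    (numPerfectMatchings G = 0 → ∀ u < 2 ^ c (n, adjBits G, a), f ((n, adjBits G, a), ⟨u⟩) = 0) ∧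
    1 - (2 : ℝ)⁻¹ ^ a ≤ R309.Pb (c (n, adjBits G, a)) fun u =>
      (1 - 1 / (a : ℝ)) * numPerfectMatchings G ≤ (f ((n, adjBits G, a), ⟨u⟩) : ℝ) ∧
      (f ((n, adjBits G, a), ⟨u⟩) : ℝ) ≤ (1 + 1 / (a : ℝ)) * numPerfectMatchings G

/-- drop bits -/
def dropR (x : Raw) (v : ℕ) : Raw := Raw.tail^[v] x

@[fun_prop] theorem pt_dropR {α : Type} [Enc α] {f : α → Raw} {g : α → ℕ} (hf : PT f) (hg : PT g) :
    PT (fun a => dropR (f a) (g a)) :=
  pt_iterShrink (PT.tail PT.id') (fun x => by simp [Raw.tail]) hg hf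

def parse64 (x : Raw) : In64 :=
  (un (sz x) (rdNat x),
   mkL (un (sz x) (rdNat x) * un (sz x) (rdNat x)) (fun i => (dropR (skip x) i).head),
   accOf (dropR (skip x) (un (sz x) (rdNat x) * un (sz x) (rdNat x))))

theorem pt_parse64 : PT parse64 := by
  have hn : PT (fun x : Raw => un (sz x) (rdNat x)) := by fun_prop
  refine PT.pair hn (PT.pair (pt_mkL (by fun_prop) ?_) (pt_accOf (pt_dropR (by fun_prop) ?_)))
  · fun_prop
  · fun_prop

theorem dropR_eq (l : List Bool) (i : ℕ) : dropR ⟨l⟩ i = ⟨l.drop i⟩ := by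
  induction i generalizing l with
  | zero => rfl
  | succ i ih =>
    have := ih l.tail
    simp only [dropR, Function.iterate_succ, Function.comp] at this ⊢
    rw [show Raw.tail ⟨l⟩ = ⟨l.tail⟩ from rfl, this]
    simp

theorem parse64_code {n : ℕ} (G : SimpleGraph (Fin n)) [DecidableRel G.Adj] (ε δ : ℚ) (u : ℕ) :
    parse64 ⟨graphCode n G ++ ratCode ε ++ ratCode δ ++ List.replicate u true⟩ =
      (n, adjBits G, u + δ.den.size) := by
  set y := ratCode ε ++ (ratCode δ ++ List.replicate u true) with hy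
  have hx : graphCode n G ++ ratCode ε ++ ratCode δ ++ List.replicate u true =
      natCode n ++ (adjBits G ++ y) := by simp [graphCode, adjBits, hy]
  have hl := length_adjBits G
  rw [hx]
  have h0 : un (sz (⟨natCode n ++ (adjBits G ++ y)⟩ : Raw)) (rdNat ⟨natCode n ++ (adjBits G ++ y)⟩) =
      n := by
    rw [rdNat_code]
    refine min_eq_left ?_
    simp only [sz_raw, List.length_append, hl]
    nlinarith [Nat.zero_le (natCode n).length, Nat.zero_le y.length, Nat.le_mul_self n]
  unfold parse64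
  rw [h0, skip_code, dropR_eq, ← hl, List.drop_left, hy, accOf_code]
  congr 2
  apply List.ext_getElem
  · simp [mkL]
  · intro i h1 h2
    simp only [mkL, List.getElem_map, List.getElem_range, dropR_eq, Raw.head]
    rw [List.drop_append_of_le_length h2.le, List.drop_eq_getElem_cons h2]
    rfl

theorem s0464_of (c : In64 → ℕ) (f : In64 × Bin → ℚ) (hc : PT c) (hf : PT f) (H : Good64 c f) :
    ∃ (A : List Bool × List Bool → List Bool) (r : Polynomial ℕ), RandPolyTime A ∧
      ∀ (n : ℕ) (G : SimpleGraph (Fin n)) [DecidableRel G.Adj] (ε δ : ℚ),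
        0 < ε → ε < 1 → 0 < δ → δ < 1 / 2 →
        (∀ ω : Fin (r.eval (graphCode n G ++ ratCode ε ++ ratCode δ ++ List.replicate ⌈ε⁻¹⌉₊ true).length) → Bool,
          ∃ z : ℚ, 0 ≤ z ∧ A (graphCode n G ++ ratCode ε ++ ratCode δ ++ List.replicate ⌈ε⁻¹⌉₊ true, List.ofFn ω) = ratCode z) ∧
        (numPerfectMatchings G = 0 →
          ∀ ω : Fin (r.eval (graphCode n G ++ ratCode ε ++ ratCode δ ++
              List.replicate ⌈ε⁻¹⌉₊ true).length) → Bool,
            A (graphCode n G ++ ratCode ε ++ ratCode δ ++ List.replicate ⌈ε⁻¹⌉₊ true,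
              List.ofFn ω) = ratCode 0) ∧
        1 - (δ : ℝ) ≤ uniformProb {ω : Fin (r.eval (graphCode n G ++ ratCode ε ++ ratCode δ ++
              List.replicate ⌈ε⁻¹⌉₊ true).length) → Bool |
            ∃ z : ℚ, A (graphCode n G ++ ratCode ε ++ ratCode δ ++ List.replicate ⌈ε⁻¹⌉₊ true,
              List.ofFn ω) = ratCode z ∧
              (1 - ε) * numPerfectMatchings G ≤ z ∧ z ≤ (1 + ε) * numPerfectMatchings G} := by
  obtain ⟨A, r, hA, h⟩ := fpras_wrap parse64 pt_parse64 c f hc hf
  refine ⟨A, r, hA, fun n G _ ε δ hε _ hδ _ => ?_⟩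
  obtain ⟨a1, a2, a3⟩ := acc_spec ε hδ
  obtain ⟨h1, h2, h3⟩ := H n G _ a1
  refine h _ (numPerfectMatchings G) ε δ _ hε a2 a3 ?_ ?_ ?_ <;> rw [parse64_code]
  exacts [h1, h2, h3]

end Crest.Agent.R304W
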